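import Vale.Agent.P259.Disc.Real

/-!
# P259, Disc: the realisations of globular sums are contractible
-/

namespace Vale.Agent.P259.Realise

open CategoryTheory Opposite
open scoped unitInterval

noncomputable section

theorem sum_cut {i : ℕ} (x : Fin i → ℝ) {j : ℕ} (h : j ≤ i) :
    ∑ l : Fin j, x ⟨l, lt_of_lt_of_le l.2 h⟩ ^ 2 ≤ ∑ k, x k ^ 2 := by
  have e : ∑ l : Fin j, x ⟨l, lt_of_lt_of_le l.2 h⟩ ^ 2 =
      ∑ k ∈ Finset.univ.map (Fin.castLEEmb h), x k ^ 2 := by
    rw [Finset.sum_map]; rfl
  rw [e]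
  exact Finset.sum_le_sum_of_subset_of_nonneg (Finset.subset_univ _) fun k _ _ => sq_nonneg _

/-- The first coordinates. -/
def proj {j i : ℕ} (h : j ≤ i) : C(Ball i, Ball j) where
  toFun v := ⟨fun l => v.1 ⟨l, lt_of_lt_of_le l.2 h⟩, (sum_cut v.1 h).trans v.2⟩
  continuous_toFun := by
    refine Continuous.subtype_mk (continuous_pi fun l : Fin j => ?_) _
    exact (continuous_apply (A := fun _ : Fin i => ℝ) ⟨l, lt_of_lt_of_le l.2 h⟩).comp
      continuous_subtype_val

theorem proj_ball (e : Bool) {j i : ℕ} (h : j < i) (v : Ball j) :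
    proj h.le (ball (Globe.face e h) v) = v := by
  refine Subtype.ext (funext fun l => ?_)
  show vec (some e) v (l : ℕ) = v.1 l
  exact vec_lt (some e) v l.2

theorem sum_lin_le {i : ℕ} (a b : Ball i) (t : I) :
    ∑ k, ((1 - (t : ℝ)) * a.1 k + (t : ℝ) * b.1 k) ^ 2 ≤ 1 := by
  have h0 := t.2.1
  have h1 : (0 : ℝ) ≤ 1 - t := sub_nonneg.2 t.2.2
  calc ∑ k, ((1 - (t : ℝ)) * a.1 k + (t : ℝ) * b.1 k) ^ 2
      ≤ ∑ k, ((1 - (t : ℝ)) * a.1 k ^ 2 + (t : ℝ) * b.1 k ^ 2) :=
        Finset.sum_le_sum fun k _ => by nlinarith [mul_nonneg h0 h1, sq_nonneg (a.1 k - b.1 k)]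
    _ = (1 - (t : ℝ)) * ∑ k, a.1 k ^ 2 + (t : ℝ) * ∑ k, b.1 k ^ 2 := by
        rw [Finset.sum_add_distrib, Finset.mul_sum, Finset.mul_sum]
    _ ≤ (1 - (t : ℝ)) * 1 + (t : ℝ) * 1 := by gcongr <;> first | exact a.2 | exact b.2
    _ = 1 := by ring

/-- Segments in the disc. -/
def seg {i : ℕ} : C((Ball i × Ball i) × I, Ball i) where
  toFun q := ⟨fun k => (1 - (q.2 : ℝ)) * q.1.1.1 k + (q.2 : ℝ) * q.1.2.1 k,
    sum_lin_le q.1.1 q.1.2 q.2⟩
  continuous_toFun := by
    refine Continuous.subtype_mk (continuous_pi fun k => ?_) _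
    exact ((continuous_const.sub (continuous_subtype_val.comp continuous_snd)).mul
      ((continuous_apply k).comp (continuous_subtype_val.comp
        (continuous_fst.comp continuous_fst)))).add
      ((continuous_subtype_val.comp continuous_snd).mul
      ((continuous_apply k).comp (continuous_subtype_val.comp
        (continuous_snd.comp continuous_fst))))

theorem seg_self {i : ℕ} (a : Ball i) (t : I) : seg ((a, a), t) = a :=
  Subtype.ext (funext fun k => by show (1 - (t : ℝ)) * a.1 k + (t : ℝ) * a.1 k = a.1 k; ring)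

theorem seg_zero {i : ℕ} (a b : Ball i) : seg ((a, b), (0 : I)) = a :=
  Subtype.ext (funext fun k => by
    show (1 - ((0 : I) : ℝ)) * a.1 k + ((0 : I) : ℝ) * b.1 k = a.1 k
    simp)

theorem seg_one {i : ℕ} (a b : Ball i) : seg ((a, b), (1 : I)) = b :=
  Subtype.ext (funext fun k => by
    show (1 - ((1 : I) : ℝ)) * a.1 k + ((1 : I) : ℝ) * b.1 k = b.1 k
    simp)

variable (T : Table)

/-- From a position to the previous one. -/
def back (p : Fin T.len) : C(Ball (T.top p.succ), Ball (T.top p.castSucc)) :=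
  (ball (Globe.face true (T.lt_left p))).comp (proj (T.lt_right p).le)

theorem back_face (p : Fin T.len) (v : Ball (T.bot p)) :
    back T p (ball (Globe.face false (T.lt_right p)) v) = ball (Globe.face true (T.lt_left p)) v :=
  congrArg (ball (Globe.face true (T.lt_left p))) (proj_ball false (T.lt_right p) v)

/-- The retraction onto the first `k + 1` positions, on the discs. -/
def fF (k : ℕ) : ∀ p, C(Ball (T.top p), Space T) :=
  Fin.induction (motive := fun p => C(Ball (T.top p), Space T)) (pos T 0) fun p ih =>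
    if (p : ℕ) < k then pos T p.succ else ih.comp (back T p)

theorem fF_succ (k : ℕ) (p : Fin T.len) :
    fF T k p.succ = if (p : ℕ) < k then pos T p.succ else (fF T k p.castSucc).comp (back T p) := by
  rw [fF, Fin.induction_succ]

theorem fF_le (k : ℕ) : ∀ p : Fin (T.len + 1), (p : ℕ) ≤ k → fF T k p = pos T p := by
  refine Fin.induction (fun _ => rfl) fun p _ hp => ?_
  rw [fF_succ, if_pos (Nat.lt_of_succ_le hp)]

theorem fF_compat (k : ℕ) (p : Fin T.len) (v : Ball (T.bot p)) :
    fF T k p.castSucc (ball (Globe.face true (T.lt_left p)) v) =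
      fF T k p.succ (ball (Globe.face false (T.lt_right p)) v) := by
  rw [fF_succ]
  split_ifs with h
  · rw [fF_le T k p.castSucc (by simpa using h.le), pos_glue]
  · exact (congrArg (fF T k p.castSucc) (back_face T p v)).symm

/-- The retraction onto the first `k + 1` positions. -/
def retr (k : ℕ) : C(Space T, Space T) := desc T (fF T k) (fF_compat T k)

/-- The homotopy squashing position `k + 1`, on the discs. -/
def hF (k : ℕ) : ∀ p, C(Ball (T.top p) × I, Space T) :=
  Fin.induction (motive := fun p => C(Ball (T.top p) × I, Space T))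
    ((pos T 0).comp ContinuousMap.fst) fun p ih =>
    if (p : ℕ) < k then (pos T p.succ).comp ContinuousMap.fst
    else if (p : ℕ) = k then (pos T p.succ).comp (seg.comp ((ContinuousMap.fst.prodMk
        (((ball (Globe.face false (T.lt_right p))).comp (proj (T.lt_right p).le)).comp
          ContinuousMap.fst)).prodMk ContinuousMap.snd))
    else ih.comp ((back T p).prodMap (ContinuousMap.id I))

theorem hF_succ (k : ℕ) (p : Fin T.len) :
    hF T k p.succ = if (p : ℕ) < k then (pos T p.succ).comp ContinuousMap.fst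
    else if (p : ℕ) = k then (pos T p.succ).comp (seg.comp ((ContinuousMap.fst.prodMk
        (((ball (Globe.face false (T.lt_right p))).comp (proj (T.lt_right p).le)).comp
          ContinuousMap.fst)).prodMk ContinuousMap.snd))
    else (hF T k p.castSucc).comp ((back T p).prodMap (ContinuousMap.id I)) := by
  rw [hF, Fin.induction_succ]

theorem hF_le (k : ℕ) : ∀ p : Fin (T.len + 1), (p : ℕ) ≤ k → ∀ v t,
    hF T k p (v, t) = pos T p v := by
  refine Fin.induction (fun _ _ _ => rfl) fun p _ hp v t => ?_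
  rw [hF_succ, if_pos (Nat.lt_of_succ_le hp)]
  rfl

theorem hF_compat (k : ℕ) (p : Fin T.len) (v : Ball (T.bot p)) (t : I) :
    hF T k p.castSucc (ball (Globe.face true (T.lt_left p)) v, t) =
      hF T k p.succ (ball (Globe.face false (T.lt_right p)) v, t) := by
  rw [hF_succ]
  split_ifs with h h'
  · rw [hF_le T k p.castSucc (by simpa using h.le)]
    exact pos_glue T p v
  · rw [hF_le T k p.castSucc (by simpa using h'.le)]
    show _ = pos T p.succ (seg ((ball (Globe.face false (T.lt_right p)) v,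
      ball (Globe.face false (T.lt_right p)) (proj (T.lt_right p).le
        (ball (Globe.face false (T.lt_right p)) v))), t))
    rw [proj_ball, seg_self]
    exact pos_glue T p v
  · exact (congrArg (fun w => hF T k p.castSucc (w, t)) (back_face T p v)).symm

theorem hF_ends (k : ℕ) : ∀ p : Fin (T.len + 1), ∀ v,
    hF T k p (v, 0) = fF T (k + 1) p v ∧ hF T k p (v, 1) = fF T k p v := by
  refine Fin.induction (fun _ => ⟨rfl, rfl⟩) fun p ih v => ?_
  rw [hF_succ, fF_succ, fF_succ]
  rcases lt_trichotomy (p : ℕ) k with h | h | h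
  · rw [if_pos h, if_pos h, if_pos (h.trans k.lt_succ_self)]
    exact ⟨rfl, rfl⟩
  · rw [if_neg h.not_lt, if_pos h, if_neg h.not_lt, if_pos (h ▸ k.lt_succ_self : (p : ℕ) < k + 1)]
    refine ⟨congrArg (pos T p.succ) (seg_zero _ _), ?_⟩
    refine (congrArg (pos T p.succ) (seg_one _ _)).trans ((pos_glue T p _).symm.trans ?_)
    rw [ContinuousMap.comp_apply, fF_le T k p.castSucc (by simpa using h.le)]
    rfl
  · rw [if_neg h.not_gt, if_neg h.ne', if_neg h.not_gt, if_neg (by omega : ¬(p : ℕ) < k + 1)]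
    exact ih (back T p v)

/-- A family of homotopies on the discs gives a homotopy. -/
theorem homotopic_of_family {Z : Type} [TopologicalSpace Z]
    (H : ∀ p, C(Ball (T.top p) × I, Z))
    (hH : ∀ (p : Fin T.len) (v : Ball (T.bot p)) (t : I),
      H p.castSucc (ball (Globe.face true (T.lt_left p)) v, t) =
        H p.succ (ball (Globe.face false (T.lt_right p)) v, t))
    (f g : C(Space T, Z)) (hf : ∀ p v, H p (v, 0) = f (pos T p v))
    (hg : ∀ p v, H p (v, 1) = g (pos T p v)) : f.Homotopic g := by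
  let G := desc T (fun p => (H p).curry) fun p v => ContinuousMap.ext fun t => hH p v t
  have h0 : ∀ t : I, ∀ p v, G (pos T p v) t = H p (v, t) := fun t p v =>
    congrArg (fun φ : C(I, Z) => φ t) (desc_pos T _ _ p v)
  refine ⟨{ toContinuousMap := G.uncurry.comp (ContinuousMap.snd.prodMk ContinuousMap.fst),
            map_zero_left := fun a => ?_, map_one_left := fun a => ?_ }⟩
  · let φ : C(Space T, Z) := ⟨fun a => G a 0, (ContinuousEvalConst.continuous_eval_const
      (0 : I)).comp G.continuous⟩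
    have h : φ = f := space_ext T fun p v => (h0 0 p v).trans (hf p v)
    exact ContinuousMap.congr_fun h a
  · let φ : C(Space T, Z) := ⟨fun a => G a 1, (ContinuousEvalConst.continuous_eval_const
      (1 : I)).comp G.continuous⟩
    have h : φ = g := space_ext T fun p v => (h0 1 p v).trans (hg p v)
    exact ContinuousMap.congr_fun h a

theorem retr_step (k : ℕ) : (retr T (k + 1)).Homotopic (retr T k) :=
  homotopic_of_family T (hF T k) (hF_compat T k) _ _
    (fun p v => ((hF_ends T k p v).1).trans (desc_pos T _ _ p v).symm)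
    fun p v => ((hF_ends T k p v).2).trans (desc_pos T _ _ p v).symm

theorem retr_top : retr T T.len = ContinuousMap.id _ :=
  space_ext T fun p v => by
    rw [retr, desc_pos, fF_le T T.len p (Nat.lt_succ_iff.1 p.isLt)]
    rfl

/-- The centre of the disc. -/
def centre (n : ℕ) : Ball n := ⟨fun _ => 0, by simp⟩

theorem retr_zero_null : (retr T 0).Homotopic
    (ContinuousMap.const _ (pos T 0 (centre (T.top 0)))) := by
  let c : C(Ball (T.top 0) × I, Ball (T.top 0)) := seg.comp
    ((ContinuousMap.fst.prodMk (ContinuousMap.const _ (centre (T.top 0)))).prodMk ContinuousMap.snd)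
  let H : ∀ p, C(Ball (T.top p) × I, Space T) :=
    Fin.induction (motive := fun p => C(Ball (T.top p) × I, Space T)) ((pos T 0).comp c)
      fun p ih => ih.comp ((back T p).prodMap (ContinuousMap.id I))
  have hs : ∀ p : Fin T.len,
      H p.succ = (H p.castSucc).comp ((back T p).prodMap (ContinuousMap.id I)) :=
    fun p => Fin.induction_succ _ _ p
  have he : ∀ p : Fin (T.len + 1), ∀ v,
      H p (v, 0) = fF T 0 p v ∧ H p (v, 1) = pos T 0 (centre (T.top 0)) := by
    refine Fin.induction (fun v => ⟨congrArg (pos T 0) (seg_zero _ _),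
      congrArg (pos T 0) (seg_one _ _)⟩) fun p ih v => ?_
    rw [hs, fF_succ, if_neg (Nat.not_lt_zero _)]
    exact ih (back T p v)
  refine homotopic_of_family T H (fun p v t => ?_) _ _
    (fun p v => ((he p v).1).trans (desc_pos T _ _ p v).symm) fun p v => (he p v).2
  rw [hs]
  exact (congrArg (fun w => H p.castSucc (w, t)) (back_face T p v)).symm

theorem contractible : ContractibleSpace (Space T) := by
  rw [contractible_iff_id_nullhomotopic]
  refine ⟨pos T 0 (centre (T.top 0)), ?_⟩
  have h : ∀ k, (retr T k).Homotopic (retr T 0) := fun k => by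
    induction k with
    | zero => exact ContinuousMap.Homotopic.refl _
    | succ k ih => exact (retr_step T k).trans ih
  rw [← retr_top T]
  exact (h T.len).trans (retr_zero_null T)

/-- The radial map from the cylinder on the sphere onto the disc. -/
def radial (k : ℕ) : C(I × rim k, Ball k) where
  toFun q := seg ((q.2.1, centre k), q.1)
  continuous_toFun := seg.continuous.comp
    (((continuous_subtype_val.comp continuous_snd).prodMk continuous_const).prodMk continuous_fst)

theorem isCompact_ball (k : ℕ) : IsCompact {v : Fin k → ℝ | ∑ i, v i ^ 2 ≤ 1} := by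
  refine IsCompact.of_isClosed_subset
    (isCompact_univ_pi fun _ => isCompact_Icc (a := (-1 : ℝ)) (b := 1))
    (isClosed_le (by fun_prop) continuous_const) fun v hv i _ => ?_
  have h : v i ^ 2 ≤ 1 :=
    le_trans (Finset.single_le_sum (f := fun j => v j ^ 2) (fun j _ => sq_nonneg (v j))
      (Finset.mem_univ i)) hv
  exact ⟨by nlinarith [sq_nonneg (v i + 1)], by nlinarith [sq_nonneg (v i - 1)]⟩

theorem isClosed_rim (k : ℕ) : IsClosed (rim k) := isClosed_eq (continuous_finsetSum _ fun l _ =>
  ((continuous_apply l).comp continuous_subtype_val).pow 2) continuous_const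

theorem rim_nonempty_point {k : ℕ} : Nonempty (rim (k + 1)) := by
  refine ⟨⟨⟨Pi.single 0 1, le_of_eq ?_⟩, ?_⟩⟩
  · simp [Pi.single_apply, ite_pow]
  · show ∑ i, (Pi.single (0 : Fin (k + 1)) (1 : ℝ) : Fin (k + 1) → ℝ) i ^ 2 = 1
    simp [Pi.single_apply, ite_pow]

theorem radial_quotient (k : ℕ) : Topology.IsQuotientMap (radial (k + 1)) := by
  have : CompactSpace (Ball (k + 1)) := isCompact_iff_compactSpace.1 (isCompact_ball _)
  have : CompactSpace (rim (k + 1)) := isCompact_iff_compactSpace.1 (isClosed_rim _).isCompact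
  refine (radial (k + 1)).continuous.isClosedMap.isQuotientMap (radial (k + 1)).continuous fun w => ?_
  by_cases hw : ∑ i, w.1 i ^ 2 = 0
  · obtain ⟨u⟩ := rim_nonempty_point (k := k)
    refine ⟨(1, u), (seg_one _ _).trans (Subtype.ext (funext fun i => ?_))⟩
    have := (Finset.sum_eq_zero_iff_of_nonneg fun i _ => sq_nonneg (w.1 i)).1 hw i (Finset.mem_univ i)
    exact (pow_eq_zero_iff two_ne_zero).1 this |>.symm
  · set r := Real.sqrt (∑ i, w.1 i ^ 2) with hr
    have h0 : 0 ≤ ∑ i, w.1 i ^ 2 := Finset.sum_nonneg fun i _ => sq_nonneg _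
    have hr0 : 0 < r := Real.sqrt_pos.2 (lt_of_le_of_ne h0 (Ne.symm hw))
    have hr1 : r ≤ 1 := Real.sqrt_le_one.2 w.2
    have hsum : ∑ i, (r⁻¹ * w.1 i) ^ 2 = 1 := by
      simp only [mul_pow, ← Finset.mul_sum]
      rw [inv_pow, hr, Real.sq_sqrt h0, inv_mul_cancel₀ hw]
    refine ⟨(⟨1 - r, sub_nonneg.2 hr1, sub_le_self _ hr0.le⟩,
      ⟨⟨fun i => r⁻¹ * w.1 i, hsum.le⟩, hsum⟩), Subtype.ext (funext fun i => ?_)⟩
    show (1 - (1 - r)) * (r⁻¹ * w.1 i) + (1 - r) * 0 = w.1 i
    field_simp
    ring

theorem radial_inj (k : ℕ) {q q' : I × rim k} (h : radial k q = radial k q') :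
    q = q' ∨ q.1 = 1 ∧ q'.1 = 1 := by
  obtain ⟨s, u⟩ := q
  obtain ⟨s', u'⟩ := q'
  have hc : ∀ i, (1 - (s : ℝ)) * u.1.1 i = (1 - (s' : ℝ)) * u'.1.1 i := fun i => by
    have h' := congrFun (congrArg Subtype.val h) i
    simpa [radial, seg, centre] using h'
  have hu : ∑ i, u.1.1 i ^ 2 = 1 := u.2
  have hu' : ∑ i, u'.1.1 i ^ 2 = 1 := u'.2
  have hsq : (1 - (s : ℝ)) ^ 2 = (1 - (s' : ℝ)) ^ 2 := by
    have h2 : ∑ i, ((1 - (s : ℝ)) * u.1.1 i) ^ 2 = ∑ i, ((1 - (s' : ℝ)) * u'.1.1 i) ^ 2 :=
      Finset.sum_congr rfl fun i _ => by rw [hc i]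
    simpa [mul_pow, ← Finset.mul_sum, hu, hu'] using h2
  have hs : (s : ℝ) = s' := by
    have := (sq_eq_sq₀ (sub_nonneg.2 s.2.2) (sub_nonneg.2 s'.2.2)).1 hsq
    linarith
  by_cases h1 : (s : ℝ) = 1
  · exact Or.inr ⟨Subtype.ext h1, Subtype.ext (hs.symm.trans h1)⟩
  · refine Or.inl (Prod.ext (Subtype.ext hs) (Subtype.ext (Subtype.ext (funext fun i => ?_))))
    have := hc i
    rw [← hs] at this
    exact mul_left_cancel₀ (sub_ne_zero.2 (Ne.symm h1)) this

theorem wc_of_contractible {Z : Type} [TopologicalSpace Z] (hZ : ContractibleSpace Z) : WC Z := by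
  intro k f
  obtain ⟨c, ⟨H⟩⟩ := (contractible_iff_id_nullhomotopic Z).1 hZ
  cases k with
  | zero =>
    refine ⟨ContinuousMap.const _ c, fun v => ?_⟩
    have hv : ∑ i, v.1.1 i ^ 2 = 1 := v.2
    simp at hv
  | succ k =>
    let g : C(I × rim (k + 1), Z) := H.toContinuousMap.comp
      ((ContinuousMap.id I).prodMap f)
    have hg : Function.FactorsThrough g (radial (k + 1)) := fun q q' h => by
      rcases radial_inj (k + 1) h with rfl | ⟨h1, h2⟩
      · rfl
      · show H (q.1, f q.2) = H (q'.1, f q'.2)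
        rw [h1, h2, H.apply_one, H.apply_one]
        rfl
    refine ⟨(radial_quotient k).lift g hg, fun v => ?_⟩
    have h := ContinuousMap.congr_fun ((radial_quotient k).lift_comp g hg) (0, v)
    have e : radial (k + 1) (0, v) = v.1 := seg_zero _ _
    rw [ContinuousMap.comp_apply, e] at h
    rw [h]
    exact H.apply_zero (f v)

/-- The realisations of globular sums are weakly contractible. -/
theorem wc_space : WC (Space T) := wc_of_contractible (contractible T)

end

end Vale.Agent.P259.Realise
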