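import Vale.Agent.P259.Disc.Contract
import Vale.Agent.P259.Glob.Rec
import Vale.Agent.P259.Spec

/-!
# P259, Disc: a disc functor with weakly contractible values exists

The functor comes from the recursion principle: the lifts are given by the contractibility of the
realisations of globular sums.
-/

namespace Vale.Agent.P259

open CategoryTheory

noncomputable section

namespace Realise

theorem ball_face_mem (e : Bool) {n : ℕ} (v : Ball n) :
    ball (Globe.face e n.lt_succ_self) v ∈ rim (n + 1) := by
  show ∑ k, (ball (Globe.face e n.lt_succ_self) v).1 k ^ 2 = 1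
  rw [ball_face_succ]
  exact hemisphere_sum e v

theorem proj_mem_rim {n : ℕ} {w : Ball (n + 1)} (hw : w ∈ rim (n + 1))
    (h0 : w.1 (Fin.last n) = 0) : proj n.le_succ w ∈ rim n := by
  have h : ∑ k, w.1 k ^ 2 = 1 := hw
  rw [Fin.sum_univ_castSucc, h0] at h
  show ∑ l : Fin n, w.1 l.castSucc ^ 2 = 1
  simpa using h

/-- A point of the sphere lies in one of the hemispheres. -/
theorem rim_hemisphere {j : ℕ} {w : Ball (j + 1)} (hw : w ∈ rim (j + 1)) :
    ∃ e, ball (Globe.face e j.lt_succ_self) (proj j.le_succ w) = w := by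
  have h : ∑ k, w.1 k ^ 2 = 1 := hw
  rw [Fin.sum_univ_castSucc] at h
  have hq : (1 : ℝ) - ∑ k, (proj j.le_succ w).1 k ^ 2 = w.1 (Fin.last j) ^ 2 := by
    show (1 : ℝ) - ∑ k : Fin j, w.1 k.castSucc ^ 2 = _
    linarith
  refine ⟨decide (0 ≤ w.1 (Fin.last j)), Subtype.ext ?_⟩
  rw [ball_face_succ]
  funext k
  refine Fin.lastCases ?_ (fun i => ?_) k
  · rw [hemisphere, Fin.snoc_last, hq, Real.sqrt_sq_eq_abs]
    by_cases hpos : 0 ≤ w.1 (Fin.last j)
    · simp [hpos, abs_of_nonneg hpos]
    · simp [hpos, abs_of_neg (not_le.1 hpos)]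
  · rw [hemisphere, Fin.snoc_castSucc]
    rfl

theorem hom_disc_ext {n : ℕ} {T : Table} {f g : ob.obj (disc n) ⟶ ob.obj T}
    (h : ∀ v, cmap f (pos (disc n) 0 v) = cmap g (pos (disc n) 0 v)) : f = g := by
  refine ConcreteCategory.hom_ext _ _ fun a => ?_
  have e : cmap f = cmap g := space_ext (disc n) fun q v => by
    obtain rfl : q = 0 := Fin.ext (Nat.lt_one_iff.1 q.isLt)
    exact h v
  exact ContinuousMap.congr_fun e a

theorem exists_lift {n : ℕ} {T : Table} (f g : ob.obj (disc n) ⟶ ob.obj T)
    (hpar : ∀ j (_ : j + 1 = n) (h : j < n) e,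
      ob.map (side e h) ≫ f = ob.map (side e h) ≫ g) :
    ∃ k : ob.obj (disc (n + 1)) ⟶ ob.obj T,
      ob.map (side false n.lt_succ_self) ≫ k = f ∧ ob.map (side true n.lt_succ_self) ≫ k = g := by
  let φ : C(Ball n, Space T) := (cmap f).comp (pos (disc n) 0)
  let γ : C(Ball n, Space T) := (cmap g).comp (pos (disc n) 0)
  have agree : ∀ w ∈ rim n, φ w = γ w := by
    intro w hw
    cases n with
    | zero =>
      have h : ∑ k, w.1 k ^ 2 = 1 := hw
      simp at h
    | succ j =>
      obtain ⟨e, he⟩ := rim_hemisphere hw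
      rw [← he]
      have h := ConcreteCategory.congr_hom (hpar j rfl j.lt_succ_self e)
        (pos (disc j) 0 (proj j.le_succ w))
      exact ((congrArg (cmap f) (ob_side e j.lt_succ_self _)).symm.trans h).trans
        (congrArg (cmap g) (ob_side e j.lt_succ_self _))
  have hc : Continuous fun w : rim (n + 1) =>
      if w.1.1 (Fin.last n) ≤ 0 then φ (proj n.le_succ w.1) else γ (proj n.le_succ w.1) :=
    Continuous.if_le (φ.continuous.comp ((proj n.le_succ).continuous.comp continuous_subtype_val))
      (γ.continuous.comp ((proj n.le_succ).continuous.comp continuous_subtype_val))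
      ((continuous_apply (A := fun _ : Fin (n + 1) => ℝ) (Fin.last n)).comp
        (continuous_subtype_val.comp continuous_subtype_val)) continuous_const
      fun w hw => agree _ (proj_mem_rim w.2 hw)
  obtain ⟨Φ, hΦ⟩ := wc_space T (n + 1) ⟨_, hc⟩
  have hside : ∀ e v, Φ (ball (Globe.face e n.lt_succ_self) v) = if e then γ v else φ v := by
    intro e v
    rw [hΦ ⟨_, ball_face_mem e v⟩]
    show (if (ball (Globe.face e n.lt_succ_self) v).1 (Fin.last n) ≤ 0 then _ else _) = _
    rw [proj_ball e n.lt_succ_self v, ball_face_succ, hemisphere, Fin.snoc_last]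
    have hs := Real.sqrt_nonneg (1 - ∑ k, v.1 k ^ 2)
    cases e
    · simp [hs]
    · by_cases h : Real.sqrt (1 - ∑ k, v.1 k ^ 2) ≤ 0
      · have h' : v ∈ rim n := by
          have := (Real.sqrt_eq_zero (sub_nonneg.2 v.2)).1 (le_antisymm h hs)
          show ∑ k, v.1 k ^ 2 = 1
          linarith
        simp [h, agree v h']
      · simp [h]
  refine ⟨ConcreteCategory.ofHom (C := CompactlyGenerated.{0, 0}) (Φ.comp (discProj (n + 1))),
    hom_disc_ext fun v => ?_, hom_disc_ext fun v => ?_⟩
  · exact ((congrArg (fun a => Φ (discProj (n + 1) a)) (ob_side false n.lt_succ_self v)).trans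
      (congrArg Φ (discProj_pos (n + 1) _))).trans (hside false v)
  · exact ((congrArg (fun a => Φ (discProj (n + 1) a)) (ob_side true n.lt_succ_self v)).trans
      (congrArg Φ (discProj_pos (n + 1) _))).trans (hside true v)

theorem wc_of_homeo {Z Z' : Type} [TopologicalSpace Z] [TopologicalSpace Z'] (φ : Z ≃ₜ Z')
    (h : WC Z) : WC Z' := by
  intro k f
  obtain ⟨F, hF⟩ := h k ((φ.symm : C(Z', Z)).comp f)
  exact ⟨(φ : C(Z, Z')).comp F, fun v => (congrArg φ (hF v)).trans (φ.apply_symm_apply (f v))⟩

theorem sums_of_iso {F : Table ⥤ CompactlyGenerated.{0, 0}} (h : F = ob) : PreservesSums F :=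
  h ▸ ob_sums

/-- A functor extending the realisation gives a disc functor. -/
theorem exists_discFunctor {E : Ext} (G : E.Obj ⥤ CompactlyGenerated.{0, 0})
    (hG : E.i ⋙ G = ob) :
    ∃ D : DiscFunctor E, ∀ T, WC (D.D.obj (E.i.obj T)).toTop := by
  let α : E.i ⋙ G ≅ ob := eqToIso hG
  let h : ∀ T, (G.obj (E.i.obj T)).toTop ≃ₜ Space T := fun T =>
    CompactlyGenerated.homeoOfIso (α.app T)
  refine ⟨⟨G, sums_of_iso hG, fun n => (h (disc n)).trans (discHomeo n), fun n e x => ?_⟩,
    fun T => wc_of_homeo (h T).symm (wc_space T)⟩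
  have hn : h (disc (n + 1)) (cmap (G.map (E.face e n)) x) =
      cmap (ob.map (side e n.lt_succ_self)) (h (disc n) x) :=
    ConcreteCategory.congr_hom (α.hom.naturality (side e n.lt_succ_self)) x
  show (discHomeo (n + 1) (h (disc (n + 1)) (cmap (G.map (E.face e n)) x))).1 =
    hemisphere e (discHomeo n (h (disc n) x))
  rw [hn]
  have hy : h (disc n) x = pos (disc n) 0 (discHomeo n (h (disc n) x)) :=
    ((discHomeo n).symm_apply_apply _).symm
  generalize discHomeo n (h (disc n) x) = v at hy ⊢
  rw [hy, ob_side]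
  show (discProj (n + 1) (pos (disc (n + 1)) 0 _)).1 = _
  rw [discProj_pos, ball_face_succ]

end Realise

/-- A disc functor with weakly contractible values exists over every coherator. -/
theorem discExists : Spec.DiscExists := fun C => by
  obtain ⟨G, hG⟩ := Glob.exists_functor (C := C) Realise.ob Realise.ob_sums
    fun _ f g h => Realise.exists_lift f g h
  exact Realise.exists_discFunctor G hG

end

end Vale.Agent.P259
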