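import Vale.Agent.P259.TopCore
import Vale.Agent.P259.Glob.Table

/-!
# P259, Disc: realisation of globular sets by discs
-/

namespace Vale.Agent.P259.Realise

open CategoryTheory Opposite

noncomputable section

/-- The sign of the first step of a map of globes. -/
def sgn : Option Bool → ℝ
  | none => 0
  | some e => if e then 1 else -1

/-- The coordinates of the image of a point of a disc. -/
def vec (o : Option Bool) {j : ℕ} (v : Ball j) (k : ℕ) : ℝ :=
  if h : k < j then v.1 ⟨k, h⟩
  else if k = j then sgn o * Real.sqrt (1 - ∑ l, v.1 l ^ 2) else 0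

theorem vec_lt (o : Option Bool) {j : ℕ} (v : Ball j) {k : ℕ} (h : k < j) :
    vec o v k = v.1 ⟨k, h⟩ :=
  dif_pos h

theorem vec_self (o : Option Bool) {j : ℕ} (v : Ball j) :
    vec o v j = sgn o * Real.sqrt (1 - ∑ l, v.1 l ^ 2) := by
  simp [vec]

theorem vec_gt (o : Option Bool) {j : ℕ} (v : Ball j) {k : ℕ} (h : j < k) : vec o v k = 0 := by
  simp [vec, not_lt_of_gt h, h.ne']

theorem sum_vec_some (e : Bool) {j i : ℕ} (v : Ball j) (h : j < i) :
    ∑ k : Fin i, vec (some e) v k ^ 2 = 1 := by
  rw [Fin.sum_univ_eq_sum_range (fun k => vec (some e) v k ^ 2) i,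
    ← Finset.sum_range_add_sum_Ico _ (Nat.succ_le_of_lt h), Finset.sum_range_succ,
    ← Fin.sum_univ_eq_sum_range (fun k => vec (some e) v k ^ 2) j]
  have h1 : ∑ k ∈ Finset.Ico (j + 1) i, vec (some e) v k ^ 2 = 0 :=
    Finset.sum_eq_zero fun k hk => by
      rw [vec_gt _ _ (by linarith [(Finset.mem_Ico.1 hk).1]), zero_pow two_ne_zero]
  have h2 : ∑ k : Fin j, vec (some e) v k ^ 2 = ∑ l, v.1 l ^ 2 :=
    Finset.sum_congr rfl fun k _ => by rw [vec_lt _ _ k.2]
  rw [h1, h2, vec_self, mul_pow, Real.sq_sqrt (by linarith [v.2])]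
  cases e <;> simp [sgn]

theorem sum_vec_le {m n : Globe} (f : m ⟶ n) (v : Ball m.dim) :
    ∑ k : Fin n.dim, vec f.first v k ^ 2 ≤ 1 := by
  obtain ⟨_ | e, hf⟩ := f
  · obtain ⟨j⟩ := m
    obtain rfl : j = n.dim := hf
    refine le_of_eq_of_le (Finset.sum_congr rfl fun k _ => ?_) v.2
    rw [vec_lt _ _ k.2]
  · exact (sum_vec_some e v hf).le

theorem continuous_vec (o : Option Bool) (j k : ℕ) : Continuous fun v : Ball j => vec o v k := by
  unfold vec
  split_ifs
  · exact (continuous_apply _).comp continuous_subtype_val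
  · exact continuous_const.mul (Real.continuous_sqrt.comp (continuous_const.sub
      (continuous_finsetSum _ fun l _ => ((continuous_apply l).comp continuous_subtype_val).pow 2)))
  · exact continuous_const

/-- The map of discs given by a map of globes. -/
def ball {m n : Globe} (f : m ⟶ n) : C(Ball m.dim, Ball n.dim) where
  toFun v := ⟨fun k => vec f.first v k, sum_vec_le f v⟩
  continuous_toFun :=
    Continuous.subtype_mk (continuous_pi fun k : Fin n.dim => continuous_vec f.first m.dim k) _

theorem ball_id (n : Globe) (v : Ball n.dim) : ball (𝟙 n) v = v :=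
  Subtype.ext (funext fun k => vec_lt _ v k.2)

theorem ball_comp {m n p : Globe} (f : m ⟶ n) (g : n ⟶ p) (v : Ball m.dim) :
    ball (f ≫ g) v = ball g (ball f v) := by
  obtain ⟨_ | e, hf⟩ := f
  · obtain ⟨j⟩ := m
    obtain ⟨i⟩ := n
    have hji : j = i := hf
    subst hji
    have hv : ball (⟨none, hf⟩ : (⟨j⟩ : Globe) ⟶ ⟨j⟩) v = v := ball_id ⟨j⟩ v
    rw [hv]
    obtain ⟨_ | e', hg⟩ := g <;> rfl
  · have hsum : ∑ l : Fin n.dim, (ball (⟨some e, hf⟩ : m ⟶ n) v).1 l ^ 2 = 1 := sum_vec_some e v hf
    refine Subtype.ext (funext fun k => ?_)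
    show vec ((⟨some e, hf⟩ : m ⟶ n) ≫ g).first v k = vec g.first (ball ⟨some e, hf⟩ v) k
    have hc : ((⟨some e, hf⟩ : m ⟶ n) ≫ g).first = some e := by
      obtain ⟨_ | e', hg⟩ := g <;> rfl
    have hf' : m.dim < n.dim := hf
    rw [hc]
    rcases lt_trichotomy (k : ℕ) n.dim with h | h | h
    · rw [vec_lt g.first _ h]
      rfl
    · rw [vec_gt _ _ (h ▸ hf'), h, vec_self, hsum, sub_self, Real.sqrt_zero, mul_zero]
    · rw [vec_gt _ _ (lt_trans hf' h), vec_gt _ _ h]

theorem ball_face_succ (e : Bool) (n : ℕ) (v : Ball n) :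
    (ball (Globe.face e n.lt_succ_self) v).1 = hemisphere e v := by
  funext k
  show vec (some e) v k = hemisphere e v k
  refine Fin.lastCases ?_ (fun i => ?_) k
  · simp [vec, sgn, hemisphere]
  · rw [Fin.val_castSucc, vec_lt _ _ i.2]
    simp [hemisphere]

/-- The cells of a globular set with a point of their disc. -/
abbrev Sig (X : GSet) : Type := Σ m : ℕ, Σ _ : X.obj (op ⟨m⟩), Ball m

/-- The identifications of the realisation. -/
inductive GRel (X : GSet) : Sig X → Sig X → Prop
  | glue {m n : ℕ} (g : (⟨m⟩ : Globe) ⟶ ⟨n⟩) (y : X.obj (op ⟨n⟩)) (v : Ball m) :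
      GRel X ⟨m, X.map g.op y, v⟩ ⟨n, y, ball g v⟩

/-- The realisation of a globular set. -/
abbrev GR (X : GSet) : Type := Quotient (Relation.EqvGen.setoid (GRel X))

/-- A point of the realisation. -/
def mk (X : GSet) {m : ℕ} (x : X.obj (op ⟨m⟩)) (v : Ball m) : GR X :=
  Quotient.mk _ ⟨m, x, v⟩

theorem mk_glue (X : GSet) {m n : ℕ} (g : (⟨m⟩ : Globe) ⟶ ⟨n⟩) (y : X.obj (op ⟨n⟩)) (v : Ball m) :
    mk X (X.map g.op y) v = mk X y (ball g v) :=
  Quotient.sound (Relation.EqvGen.rel _ _ (GRel.glue g y v))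

theorem continuous_mk (X : GSet) {m : ℕ} (x : X.obj (op ⟨m⟩)) : Continuous (mk X x) :=
  continuous_quotient_mk'.comp (continuous_sigmaMk.comp
    (continuous_sigmaMk (σ := fun _ : X.obj (op ⟨m⟩) => Ball m) (i := x)))

/-- Maps out of a realisation. -/
def lift (X : GSet) {Z : Type*} [TopologicalSpace Z] (h : ∀ m, X.obj (op ⟨m⟩) → C(Ball m, Z))
    (hg : ∀ {m n : ℕ} (g : (⟨m⟩ : Globe) ⟶ ⟨n⟩) (y : X.obj (op ⟨n⟩)) (v : Ball m),
      h m (X.map g.op y) v = h n y (ball g v)) : C(GR X, Z) where
  toFun := Quotient.lift (fun a : Sig X => h a.1 a.2.1 a.2.2) fun a b hab => by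
    induction hab with
    | rel a b hr => cases hr with | glue g y v => exact hg g y v
    | refl a => rfl
    | symm a b _ ih => exact ih.symm
    | trans a b c _ _ ih ih' => exact ih.trans ih'
  continuous_toFun := continuous_quot_lift _ (continuous_sigma fun m => continuous_sigma fun x =>
    (h m x).continuous)

theorem lift_mk (X : GSet) {Z : Type*} [TopologicalSpace Z]
    (h : ∀ m, X.obj (op ⟨m⟩) → C(Ball m, Z))
    (hg : ∀ {m n : ℕ} (g : (⟨m⟩ : Globe) ⟶ ⟨n⟩) (y : X.obj (op ⟨n⟩)) (v : Ball m),
      h m (X.map g.op y) v = h n y (ball g v))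
    {m : ℕ} (x : X.obj (op ⟨m⟩)) (v : Ball m) : lift X h hg (mk X x v) = h m x v :=
  rfl

theorem hom_ext {X : GSet} {Z : Type*} [TopologicalSpace Z] {f g : C(GR X, Z)}
    (h : ∀ (m : ℕ) (x : X.obj (op ⟨m⟩)) (v : Ball m), f (mk X x v) = g (mk X x v)) : f = g := by
  refine ContinuousMap.ext fun a => ?_
  induction a using Quotient.inductionOn with
  | _ a => exact h a.1 a.2.1 a.2.2

/-- The map of realisations given by a map of globular sets. -/
def grMap {X Y : GSet} (α : X ⟶ Y) : C(GR X, GR Y) :=
  lift X (fun _ x => ⟨mk Y (α.app _ x), continuous_mk Y _⟩) fun g y v => by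
    show mk Y (α.app _ (X.map g.op y)) v = mk Y (α.app _ y) (ball g v)
    rw [← mk_glue Y g]
    exact congrArg (fun z => mk Y z v) (ConcreteCategory.congr_hom (α.naturality g.op) y)

theorem grMap_mk {X Y : GSet} (α : X ⟶ Y) {m : ℕ} (x : X.obj (op ⟨m⟩)) (v : Ball m) :
    grMap α (mk X x v) = mk Y (α.app _ x) v :=
  rfl

/-- The realisation of a globular sum. -/
abbrev Space (T : Table) : Type := GR T.toGSet

/-- The cells of a globular sum. -/
def cell (T : Table) {m : ℕ} (p : Fin (T.len + 1)) (g : (⟨m⟩ : Globe) ⟶ ⟨T.top p⟩) :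
    T.toGSet.obj (op ⟨m⟩) :=
  Quot.mk _ ⟨p, g⟩

/-- The disc at a position. -/
def pos (T : Table) (p : Fin (T.len + 1)) : C(Ball (T.top p), Space T) :=
  ⟨mk T.toGSet (cell T p (𝟙 _)), continuous_mk _ _⟩

theorem mk_cell (T : Table) {m : ℕ} (p : Fin (T.len + 1)) (g : (⟨m⟩ : Globe) ⟶ ⟨T.top p⟩)
    (v : Ball m) : mk T.toGSet (cell T p g) v = pos T p (ball g v) := by
  have h := mk_glue T.toGSet g (cell T p (𝟙 _)) v
  have e : T.toGSet.map g.op (cell T p (𝟙 _)) = cell T p g :=
    congrArg (Quot.mk _) (Sigma.ext rfl (heq_of_eq (Category.comp_id g)))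
  rw [e] at h
  exact h

theorem pos_glue (T : Table) (p : Fin T.len) (v : Ball (T.bot p)) :
    pos T p.castSucc (ball (Globe.face true (T.lt_left p)) v) =
      pos T p.succ (ball (Globe.face false (T.lt_right p)) v) := by
  have e : cell T p.castSucc (Globe.face true (T.lt_left p)) =
      cell T p.succ (Globe.face false (T.lt_right p)) := by
    have h := Quot.sound (Table.Rel.glue (T := T) (n := ⟨T.bot p⟩) p (𝟙 _))
    simp only [Category.id_comp] at h
    exact h
  rw [← mk_cell, ← mk_cell]
  exact congrArg (fun c => mk T.toGSet c v) e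

section Desc

variable (T : Table) {Z : Type*} [TopologicalSpace Z] (f : ∀ p, C(Ball (T.top p), Z))
  (hf : ∀ (p : Fin T.len) (v : Ball (T.bot p)),
    f p.castSucc (ball (Globe.face true (T.lt_left p)) v) =
      f p.succ (ball (Globe.face false (T.lt_right p)) v))

/-- Maps out of a globular sum, given on the discs of the positions. -/
def desc : C(Space T, Z) :=
  lift T.toGSet
    (fun m => Quot.lift (fun c : T.Pre ⟨m⟩ => (f c.1).comp (ball c.2)) fun c d h => by
      cases h with
      | glue p g =>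
        refine ContinuousMap.ext fun v => ?_
        show f _ (ball (g ≫ _) v) = f _ (ball (g ≫ _) v)
        rw [ball_comp, ball_comp]
        exact hf p (ball g v))
    fun g y v => by
      induction y using Quot.ind with
      | _ c => exact congrArg (f c.1) (ball_comp g c.2 v)

theorem desc_pos (p : Fin (T.len + 1)) (v : Ball (T.top p)) : desc T f hf (pos T p v) = f p v :=
  congrArg (f p) (ball_id _ v)

theorem space_ext {g h : C(Space T, Z)} (hgh : ∀ p v, g (pos T p v) = h (pos T p v)) : g = h := by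
  refine hom_ext fun m x v => ?_
  induction x using Quot.ind with
  | _ c =>
    obtain ⟨p, g'⟩ := c
    rw [show (Quot.mk _ ⟨p, g'⟩ : T.toGSet.obj (op ⟨m⟩)) = cell T p g' from rfl, mk_cell]
    exact hgh p _

end Desc

/-- The realisation of globular sums, as compactly generated spaces. -/
def ob : Table ⥤ CompactlyGenerated.{0, 0} where
  obj T := CompactlyGenerated.of (Space T)
  map f := CompactlyGenerated.ofHom (grMap f.hom)
  map_id T := by
    refine ConcreteCategory.hom_ext _ _ fun a => ?_
    induction a using Quotient.inductionOn with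
    | _ a => rfl
  map_comp f g := by
    refine ConcreteCategory.hom_ext _ _ fun a => ?_
    induction a using Quotient.inductionOn with
    | _ a => rfl

theorem ob_incl (T : Table) (p : Fin (T.len + 1)) (v : Ball (T.top p)) :
    cmap (ob.map (incl T p)) (pos (disc (T.top p)) 0 v) = pos T p v :=
  rfl

theorem ob_side (e : Bool) {j i : ℕ} (h : j < i) (v : Ball j) :
    cmap (ob.map (side e h)) (pos (disc j) 0 v) = pos (disc i) 0 (ball (Globe.face e h) v) := by
  have hc : cmap (ob.map (side e h)) (pos (disc j) 0 v) =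
      mk (disc i).toGSet (cell (disc i) 0 (𝟙 _ ≫ Globe.face e h)) v := rfl
  rw [hc, Category.id_comp, mk_cell]
  rfl

theorem ob_sums : PreservesSums ob := by
  intro T Z f hf
  let φ : ∀ p, C(Ball (T.top p), Z.toTop) := fun p => (cmap (f p)).comp (pos (disc (T.top p)) 0)
  have hφ : ∀ (p : Fin T.len) (v : Ball (T.bot p)),
      φ p.castSucc (ball (Globe.face true (T.lt_left p)) v) =
        φ p.succ (ball (Globe.face false (T.lt_right p)) v) := by
    intro p v
    have := ConcreteCategory.congr_hom (hf p) (pos (disc (T.bot p)) 0 v)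
    exact ((congrArg (cmap (f p.castSucc)) (ob_side true (T.lt_left p) v)).symm.trans this).trans
      (congrArg (cmap (f p.succ)) (ob_side false (T.lt_right p) v))
  refine ⟨ConcreteCategory.ofHom (C := CompactlyGenerated.{0, 0}) (desc T φ hφ), fun p => ?_,
    fun g hg => ?_⟩
  · refine ConcreteCategory.hom_ext _ _ fun a => ?_
    have h : (desc T φ hφ).comp (cmap (ob.map (incl T p))) = cmap (f p) :=
      space_ext (disc (T.top p)) fun q v => by
        obtain rfl : q = 0 := Fin.ext (Nat.lt_one_iff.1 q.isLt)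
        exact (congrArg (desc T φ hφ) (ob_incl T p v)).trans (desc_pos T φ hφ p v)
    exact ContinuousMap.congr_fun h a
  · refine ConcreteCategory.hom_ext _ _ fun a => ?_
    have h : cmap g = desc T φ hφ := space_ext T fun p v => by
      exact ((congrArg (cmap g) (ob_incl T p v)).symm.trans
        (ConcreteCategory.congr_hom (hg p) _)).trans (desc_pos T φ hφ p v).symm
    exact ContinuousMap.congr_fun h a

/-- The projection of the realisation of a disc. -/
def discProj (n : ℕ) : C(Space (disc n), Ball n) :=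
  desc (disc n) (fun _ => ContinuousMap.id (Ball n)) fun p => p.elim0

theorem discProj_pos (n : ℕ) (v : Ball n) : discProj n (pos (disc n) 0 v) = v :=
  desc_pos (disc n) (fun _ => ContinuousMap.id (Ball n)) (fun p => p.elim0) 0 v

/-- The realisation of a disc is the disc. -/
def discHomeo (n : ℕ) : Space (disc n) ≃ₜ Ball n where
  toFun := discProj n
  invFun := pos (disc n) 0
  left_inv a := by
    have h : (pos (disc n) 0).comp (discProj n) = ContinuousMap.id _ :=
      space_ext (disc n) fun q v => by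
        obtain rfl : q = 0 := Fin.ext (Nat.lt_one_iff.1 q.isLt)
        exact congrArg (pos (disc n) 0) (discProj_pos n v)
    exact ContinuousMap.congr_fun h a
  right_inv v := discProj_pos n v
  continuous_toFun := ContinuousMap.continuous _
  continuous_invFun := ContinuousMap.continuous _

end

end Vale.Agent.P259.Realise
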